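import Mathlib
import Vale.Agent.Helpers.BernsteinZero

set_option autoImplicit false

namespace Vale.Agent.Results.P047.EvenDegree

open Finset

/-- The sign in `{-1, 1}` encoded by a bit. -/
def sgn (b : Bool) : ℝ := if b then -1 else 1

/-- The character `x ↦ ∏_{i ∈ S} x_i` of the cube `{-1,1}^n` (points are encoded by bit vectors). -/
noncomputable def chi {n : ℕ} (S : Finset (Fin n)) (x : Fin n → Bool) : ℝ := ∏ i ∈ S, sgn (x i)

/-- The Fourier coefficient `E[f(X) ∏_{i ∈ S} X_i]`, `X` uniform on the cube. -/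
noncomputable def fourier {n : ℕ} (f : (Fin n → Bool) → ℝ) (S : Finset (Fin n)) : ℝ :=
  (∑ x, f x * chi S x) / 2 ^ n

theorem expand {n : ℕ} (f : (Fin n → Bool) → ℝ) (t : ℝ) :
    ∑ S : Finset (Fin n), fourier f S * t ^ S.card
      = (∑ x, f x * ∏ i, (1 + t * sgn (x i))) / 2 ^ n := by
  have h : ∀ x : Fin n → Bool,
      ∏ i, (1 + t * sgn (x i)) = ∑ S : Finset (Fin n), t ^ S.card * chi S x := by
    intro x
    rw [Finset.prod_one_add, Finset.powerset_univ]
    apply Finset.sum_congr rfl
    intro S _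
    rw [Finset.prod_mul_distrib, Finset.prod_const, chi]
  simp_rw [h, Finset.mul_sum]
  rw [Finset.sum_comm, Finset.sum_div]
  apply Finset.sum_congr rfl
  intro S _
  rw [fourier, div_mul_eq_mul_div, Finset.sum_mul]
  congr 1
  apply Finset.sum_congr rfl
  intro x _
  ring

theorem weight_nonneg {n : ℕ} (t : ℝ) (ht : |t| ≤ 1) (x : Fin n → Bool) :
    0 ≤ ∏ i, (1 + t * sgn (x i)) := by
  apply Finset.prod_nonneg
  intro i _
  have := abs_le.mp ht
  unfold sgn
  split_ifs <;> linarith [this.1, this.2]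

theorem weight_sum {n : ℕ} (t : ℝ) :
    ∑ x : Fin n → Bool, ∏ i, (1 + t * sgn (x i)) = 2 ^ n := by
  have h := Finset.prod_univ_sum (fun _ : Fin n => (Finset.univ : Finset Bool))
    (fun _ b => 1 + t * sgn b)
  rw [Fintype.piFinset_univ] at h
  rw [← h]
  have : ∑ b : Bool, (1 + t * sgn b) = 2 := by
    simp [sgn]
    ring
  rw [Finset.prod_congr rfl (fun _ _ => this), Finset.prod_const, Finset.card_univ,
    Fintype.card_fin]

theorem bounded {n : ℕ} (f : (Fin n → Bool) → ℝ) (hf : ∀ x, |f x| ≤ 1) (t : ℝ) (ht : |t| ≤ 1) :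
    |∑ S : Finset (Fin n), fourier f S * t ^ S.card| ≤ 1 := by
  rw [expand, abs_div, abs_of_pos (by positivity : (0 : ℝ) < 2 ^ n), div_le_one (by positivity)]
  calc |∑ x, f x * ∏ i, (1 + t * sgn (x i))|
      ≤ ∑ x, |f x * ∏ i, (1 + t * sgn (x i))| := Finset.abs_sum_le_sum_abs _ _
    _ ≤ ∑ x : Fin n → Bool, ∏ i, (1 + t * sgn (x i)) := by
        apply Finset.sum_le_sum
        intro x _
        rw [abs_mul, abs_of_nonneg (weight_nonneg t ht x)]
        exact mul_le_of_le_one_left (weight_nonneg t ht x) (hf x)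
    _ = 2 ^ n := weight_sum t

/-- If `f : {-1,1}^n → [-1,1]` (in particular if `f` is Boolean) has degree at most `2k+2`, then
`∑_i \hat f({i}) ≤ 2k+1`. -/
theorem result (n k : ℕ) (f : (Fin n → Bool) → ℝ) (hf : ∀ x, |f x| ≤ 1)
    (hdeg : ∀ S : Finset (Fin n), 2 * k + 2 < S.card → fourier f S = 0) :
    ∑ i : Fin n, fourier f {i} ≤ 2 * (k : ℝ) + 1 := by
  classical
  set c : ℕ → ℝ := fun j => ∑ S : Finset (Fin n), (if S.card = j then fourier f S else 0) with hc
  have hlevel : ∀ t : ℝ, ∑ j ∈ range (2 * k + 3), c j * t ^ j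
      = ∑ S : Finset (Fin n), fourier f S * t ^ S.card := by
    intro t
    simp only [hc, Finset.sum_mul]
    rw [Finset.sum_comm]
    apply Finset.sum_congr rfl
    intro S _
    by_cases hS : S.card < 2 * k + 3
    · rw [Finset.sum_eq_single S.card]
      · simp
      · intro j _ hj
        rw [if_neg (Ne.symm hj)]
        simp
      · intro h
        exact absurd (mem_range.mpr hS) h
    · rw [hdeg S (by omega)]
      simp
  have hone : c 1 = ∑ i : Fin n, fourier f {i} := by
    simp only [hc]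
    rw [← Finset.sum_filter]
    have himg : (univ.filter (fun S : Finset (Fin n) => S.card = 1))
        = univ.image (fun i : Fin n => ({i} : Finset (Fin n))) := by
      ext S
      simp only [mem_filter, mem_univ, true_and, mem_image, Finset.card_eq_one]
      constructor
      · rintro ⟨a, rfl⟩
        exact ⟨a, rfl⟩
      · rintro ⟨a, rfl⟩
        exact ⟨a, rfl⟩
    rw [himg, Finset.sum_image]
    intro a _ b _ h
    exact Finset.singleton_injective h
  rw [← hone]
  apply Vale.Agent.Helpers.BernsteinZero.bernstein_zero k c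
  intro t ht
  rw [hlevel]
  exact bounded f hf t ht

end Vale.Agent.Results.P047.EvenDegree
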